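import Vale.Agent.P297.H839.Defs

/-!
The polynomials of the third family (`K² = 2`): two conics of the plane with coordinates
`s + t`, `s t`.
-/

namespace Vale.Agent.P297.H109

/-- `R₁(s,t) = (1 - κ²) s t (s + t) + κ² (s² + t²) + (κ² - 2 κ - 1) s t`. -/
noncomputable def ROne (κ : ℂ) {N : Type} [Field N] [Algebra ℂ N] (s t : N) : N :=
  (1 - algebraMap ℂ N κ ^ 2) * (s * t * (s + t)) + algebraMap ℂ N κ ^ 2 * (s ^ 2 + t ^ 2) +
    (algebraMap ℂ N κ ^ 2 - 2 * algebraMap ℂ N κ - 1) * (s * t)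

/-- `R₂(s,t) = s² + t² - (κ² + 2 κ - 1) s t + (κ² - 1) (s + t)`. -/
noncomputable def RTwo (κ : ℂ) {N : Type} [Field N] [Algebra ℂ N] (s t : N) : N :=
  s ^ 2 + t ^ 2 - (algebraMap ℂ N κ ^ 2 + 2 * algebraMap ℂ N κ - 1) * (s * t) +
    (algebraMap ℂ N κ ^ 2 - 1) * (s + t)

end Vale.Agent.P297.H109
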