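import Vale.Agent.P297.H839.Swap
import Vale.Agent.P297.H109.CampDefs

/-!
The third family: `z² = g(s) R₁ R₂`. The field `ℂ(s,t,z)` is purely transcendental.
-/

set_option linter.unusedSectionVars false
set_option linter.style.haveILetI false

open CategoryTheory AlgebraicGeometry IntermediateField Polynomial

namespace Vale.Agent.P297.H109

open Vale.Agent.P297 Vale.Agent.P297.H839

/-- Splitting of the quadratic polynomial `H`. -/
theorem exists_factors (A B C : ℂ) :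
    ∃ a₁ b₁ a₂ b₂ : ℂ, a₁ * a₂ = A ∧ a₁ * b₂ + a₂ * b₁ = B ∧ b₁ * b₂ = C := by
  by_cases hA : A = 0
  · refine ⟨0, 1, B, C, ?_, ?_, ?_⟩
    · rw [hA, zero_mul]
    · ring
    · ring
  · obtain ⟨s, hs⟩ := IsAlgClosed.exists_eq_mul_self (discrim A B C)
    have h1 := (quadratic_eq_zero_iff hA hs ((-B + s) / (2 * A))).2 (Or.inl rfl)
    obtain ⟨r, hr⟩ : ∃ r : ℂ, A * (r * r) + B * r + C = 0 := ⟨_, h1⟩
    refine ⟨1, -r, A, B + A * r, ?_, ?_, ?_⟩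
    · ring
    · ring
    · linear_combination -hr

section

variable {N : Type} [Field N] [Algebra ℂ N]

theorem ROne_ne_zero {κ : ℂ} (hκ : κ ≠ 0) {s t : N} (hst : AlgebraicIndependent ℂ ![s, t]) :
    ROne κ s t ≠ 0 := by
  have h := aeval_ne_zero hst (MvPolynomial.C (1 - κ ^ 2) * (MvPolynomial.X 0 * MvPolynomial.X 1 *
    (MvPolynomial.X 0 + MvPolynomial.X 1)) + MvPolynomial.C (κ ^ 2) *
    (MvPolynomial.X 0 ^ 2 + MvPolynomial.X 1 ^ 2) + MvPolynomial.C (κ ^ 2 - 2 * κ - 1) *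
    (MvPolynomial.X 0 * MvPolynomial.X 1)) ![1, 0] (by
      simp only [map_mul, map_add, map_pow, MvPolynomial.eval_C,
        MvPolynomial.eval_X, Matrix.cons_val_zero, Matrix.cons_val_one]
      have h1 : (1 - κ ^ 2) * (1 * 0 * (1 + 0)) + κ ^ 2 * (1 ^ 2 + 0 ^ 2) +
          (κ ^ 2 - 2 * κ - 1) * (1 * 0) = κ ^ 2 := by ring
      rw [h1]
      exact pow_ne_zero 2 hκ)
  simp only [map_mul, map_add, map_pow, MvPolynomial.aeval_C, MvPolynomial.aeval_X,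
    Matrix.cons_val_zero, Matrix.cons_val_one, map_sub, map_one, map_ofNat] at h
  exact h

theorem RTwo_ne_zero {κ : ℂ} (hκ : κ ≠ 0) {s t : N} (hst : AlgebraicIndependent ℂ ![s, t]) :
    RTwo κ s t ≠ 0 := by
  have h := aeval_ne_zero hst (MvPolynomial.X 0 ^ 2 + MvPolynomial.X 1 ^ 2 -
    MvPolynomial.C (κ ^ 2 + 2 * κ - 1) * (MvPolynomial.X 0 * MvPolynomial.X 1) +
    MvPolynomial.C (κ ^ 2 - 1) * (MvPolynomial.X 0 + MvPolynomial.X 1)) ![1, 0] (by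
      simp only [map_mul, map_add, map_sub, map_pow, MvPolynomial.eval_C,
        MvPolynomial.eval_X, Matrix.cons_val_zero, Matrix.cons_val_one]
      have h1 : 1 ^ 2 + 0 ^ 2 - (κ ^ 2 + 2 * κ - 1) * (1 * 0) + (κ ^ 2 - 1) * (1 + 0) =
          κ ^ 2 := by ring
      rw [h1]
      exact pow_ne_zero 2 hκ)
  simp only [map_mul, map_add, map_pow, MvPolynomial.aeval_C, MvPolynomial.aeval_X,
    Matrix.cons_val_zero, Matrix.cons_val_one, map_sub, map_one, map_ofNat] at h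
  exact h

/-- `s² H(t/s)` is not zero. -/
theorem H_ne_zero {κ c : ℂ} (hκ : κ ≠ 0) (hκ1 : κ ^ 2 ≠ 1) (hc : c ≠ 1) {s t : N}
    (hst : AlgebraicIndependent ℂ ![s, t]) :
    (1 - algebraMap ℂ N c) * (1 - algebraMap ℂ N κ ^ 2) * (t * (s + t)) -
      (t - algebraMap ℂ N κ * s) ^ 2 ≠ 0 := by
  have h := aeval_ne_zero hst (MvPolynomial.C ((1 - c) * (1 - κ ^ 2)) * (MvPolynomial.X 1 *
    (MvPolynomial.X 0 + MvPolynomial.X 1)) -
    (MvPolynomial.X 1 - MvPolynomial.C κ * MvPolynomial.X 0) ^ 2) ![1, κ] (by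
      simp only [map_mul, map_add, map_sub, map_pow, MvPolynomial.eval_C,
        MvPolynomial.eval_X, Matrix.cons_val_zero, Matrix.cons_val_one]
      have h1 : (1 - c) * (1 - κ ^ 2) * (κ * (1 + κ)) - (κ - κ * 1) ^ 2 =
          (1 - c) * (1 - κ ^ 2) * (κ * (1 + κ)) := by ring
      rw [h1]
      have h2 : (1 : ℂ) + κ ≠ 0 := by
        intro h3
        apply hκ1
        linear_combination (κ - 1) * h3
      exact mul_ne_zero (mul_ne_zero (sub_ne_zero.2 hc.symm) (sub_ne_zero.2 hκ1.symm))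
        (mul_ne_zero hκ h2))
  simp only [map_mul, map_add, map_pow, MvPolynomial.aeval_C, MvPolynomial.aeval_X,
    Matrix.cons_val_zero, Matrix.cons_val_one, map_sub, map_one] at h
  exact h

/-- The resultant does not vanish. -/
theorem BR_ne_zero {κ e f g a₁ b₁ : ℂ} (he : e ≠ 0) {s t : N}
    (hst : AlgebraicIndependent ℂ ![s, t]) :
    algebraMap ℂ N e * ROne κ s t ^ 2 + algebraMap ℂ N f * (ROne κ s t * ((s - 1) *
      (algebraMap ℂ N κ * t - s) * (algebraMap ℂ N a₁ * t + algebraMap ℂ N b₁ * s))) +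
      algebraMap ℂ N g * ((s - 1) * (algebraMap ℂ N κ * t - s) *
        (algebraMap ℂ N a₁ * t + algebraMap ℂ N b₁ * s)) ^ 2 ≠ 0 := by
  obtain ⟨R, hR⟩ : ∃ R : MvPolynomial (Fin 2) ℂ, R = MvPolynomial.C (1 - κ ^ 2) *
    (MvPolynomial.X 0 * MvPolynomial.X 1 *
    (MvPolynomial.X 0 + MvPolynomial.X 1)) + MvPolynomial.C (κ ^ 2) *
    (MvPolynomial.X 0 ^ 2 + MvPolynomial.X 1 ^ 2) + MvPolynomial.C (κ ^ 2 - 2 * κ - 1) *
    (MvPolynomial.X 0 * MvPolynomial.X 1) := ⟨_, rfl⟩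
  obtain ⟨M, hM⟩ : ∃ M : MvPolynomial (Fin 2) ℂ, M = (MvPolynomial.X 0 - 1) *
    (MvPolynomial.C κ * MvPolynomial.X 1 - MvPolynomial.X 0) *
    (MvPolynomial.C a₁ * MvPolynomial.X 1 + MvPolynomial.C b₁ * MvPolynomial.X 0) := ⟨_, rfl⟩
  have hRe : MvPolynomial.eval ![1, κ + 1] R = 1 := by
    rw [hR]
    simp only [map_mul, map_add, map_pow, MvPolynomial.eval_C,
      MvPolynomial.eval_X, Matrix.cons_val_zero, Matrix.cons_val_one]
    ring
  have hMe : MvPolynomial.eval ![1, κ + 1] M = 0 := by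
    rw [hM]
    simp only [map_mul, map_add, map_sub, map_one, MvPolynomial.eval_C,
      MvPolynomial.eval_X, Matrix.cons_val_zero, Matrix.cons_val_one]
    ring
  have hRa : MvPolynomial.aeval ![s, t] R = ROne κ s t := by
    rw [hR]
    simp only [map_mul, map_add, map_pow, MvPolynomial.aeval_C, MvPolynomial.aeval_X,
      Matrix.cons_val_zero, Matrix.cons_val_one, map_sub, map_one, map_ofNat]
    rfl
  have hMa : MvPolynomial.aeval ![s, t] M = (s - 1) *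
      (algebraMap ℂ N κ * t - s) * (algebraMap ℂ N a₁ * t + algebraMap ℂ N b₁ * s) := by
    rw [hM]
    simp only [map_mul, map_add, MvPolynomial.aeval_C, MvPolynomial.aeval_X,
      Matrix.cons_val_zero, Matrix.cons_val_one, map_sub, map_one]
  have h := aeval_ne_zero hst (MvPolynomial.C e * R ^ 2 + MvPolynomial.C f * (R * M) +
    MvPolynomial.C g * M ^ 2) ![1, κ + 1] (by
      simp only [map_mul, map_add, map_pow, MvPolynomial.eval_C]
      rw [hRe, hMe]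
      have h1 : e * 1 ^ 2 + f * (1 * 0) + g * 0 ^ 2 = e := by ring
      rw [h1]
      exact he)
  simp only [map_mul, map_add, map_pow, MvPolynomial.aeval_C] at h
  rw [hRa, hMa] at h
  exact h

/-- The relation between the two generators `ρ`, `η` and `r = t / s`. -/
theorem relation_aux {k γ a₁ b₁ a₂ b₂ r ω ρ Y D x P₁ Q₁ : N} (hu : (k * r - 1) * (a₁ * r + b₁) ≠ 0)
    (hρ : ρ * ((k * r - 1) * (a₁ * r + b₁)) = P₁ + ω) (hD : D = (a₁ * r + b₁) * ρ + (k * r - 1))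
    (hPQ : Q₁ = P₁ + (k * r - 1) ^ 2)
    (hH : (a₁ * r + b₁) * (a₂ * r + b₂) = γ * P₁ - x ^ 2)
    (hY : (Y * ((k * r - 1) * (a₁ * r + b₁))) ^ 2 = (x ^ 2 + γ * ω) * (P₁ + ω) * (Q₁ + ω)) :
    Y ^ 2 = ρ * (γ * ρ * (k * r - 1) - (a₂ * r + b₂)) * D := by
  apply mul_right_cancel₀ (pow_ne_zero 2 hu)
  have h1 : x ^ 2 + γ * ω = (a₁ * r + b₁) * (γ * ρ * (k * r - 1) - (a₂ * r + b₂)) := by
    linear_combination (-γ) * hρ + hH
  have h2 : Q₁ + ω = (k * r - 1) * D := by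
    rw [hPQ, hD]
    linear_combination (-1 : N) * hρ
  rw [← mul_pow, hY, h1, h2, ← hρ]
  ring

/-- the field `ℂ(s,t,z)` is purely transcendental -/
theorem camp_rational_z {κ c : ℂ} (hκ : κ ≠ 0) (hκ1 : κ ^ 2 ≠ 1) (hκc : κ ≠ c) (hc : c ≠ 1)
    {s t z : N} (hst : AlgebraicIndependent ℂ ![s, t])
    (hz : z ^ 2 = gg c s * (ROne κ s t * RTwo κ s t)) :
    IsRational (IntermediateField.adjoin ℂ {s, t} ⊔ IntermediateField.adjoin ℂ {z}) := by
  obtain ⟨a₁, b₁, a₂, b₂, f1, f2, f3⟩ := exists_factors ((1 - c) * (1 - κ ^ 2) - 1)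
    ((1 - c) * (1 - κ ^ 2) + 2 * κ) (-κ ^ 2)
  have hab : a₁ + κ * b₁ ≠ 0 := by
    intro h
    have h1 : (a₁ + κ * b₁) * (a₂ + κ * b₂) = (1 - κ ^ 2) * ((1 + κ) * (κ - c)) := by
      linear_combination f1 + κ * f2 + κ ^ 2 * f3
    rw [h, zero_mul] at h1
    have h2 : (1 : ℂ) + κ ≠ 0 := by
      intro h3
      apply hκ1
      linear_combination (κ - 1) * h3
    exact mul_ne_zero (sub_ne_zero.2 hκ1.symm) (mul_ne_zero h2 (sub_ne_zero.2 hκc)) h1.symm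
  have hR1 := ROne_ne_zero hκ hst
  have hR2 := RTwo_ne_zero hκ hst
  have hH0 := H_ne_zero hκ hκ1 hc hst
  have hBR := BR_ne_zero (κ := κ) (e := -((1 - c) * (a₁ + κ * b₁))) (f := a₂ * b₁ - a₁ * b₂)
    (g := -(a₂ + κ * b₂)) (a₁ := a₁) (b₁ := b₁)
    (neg_ne_zero.2 (mul_ne_zero (sub_ne_zero.2 hc.symm) hab)) hst
  have hT : t - algebraMap ℂ N κ * s ≠ 0 := (factors_ne_zero κ hst).2.2.1
  have hT' : s - algebraMap ℂ N κ * t ≠ 0 := (factors_ne_zero κ hst).2.2.2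
  have hs0 : s ≠ 0 := by simpa using ne_const hst 0
  have hs1 : s - 1 ≠ 0 := sub_ne_zero.2 (by simpa using ne_const hst 1)
  have g1 : algebraMap ℂ N a₁ * algebraMap ℂ N a₂ =
      (1 - algebraMap ℂ N c) * (1 - algebraMap ℂ N κ ^ 2) - 1 := by
    rw [← map_mul, f1]
    simp only [map_sub, map_mul, map_one, map_pow]
  have g2 : algebraMap ℂ N a₁ * algebraMap ℂ N b₂ + algebraMap ℂ N a₂ * algebraMap ℂ N b₁ =
      (1 - algebraMap ℂ N c) * (1 - algebraMap ℂ N κ ^ 2) + 2 * algebraMap ℂ N κ := by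
    rw [← map_mul, ← map_mul, ← map_add, f2]
    simp only [map_sub, map_mul, map_one, map_pow, map_add, map_ofNat]
  have g3 : algebraMap ℂ N b₁ * algebraMap ℂ N b₂ = -algebraMap ℂ N κ ^ 2 := by
    rw [← map_mul, f3]
    simp only [map_neg, map_pow]
  simp only [map_neg, map_sub, map_mul, map_add, map_one] at hBR
  -- names
  obtain ⟨k, hk⟩ : ∃ k : N, k = algebraMap ℂ N κ := ⟨_, rfl⟩
  obtain ⟨c', hc'⟩ : ∃ c' : N, c' = algebraMap ℂ N c := ⟨_, rfl⟩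
  obtain ⟨A₁, hA₁⟩ : ∃ A₁ : N, A₁ = algebraMap ℂ N a₁ := ⟨_, rfl⟩
  obtain ⟨B₁, hB₁⟩ : ∃ B₁ : N, B₁ = algebraMap ℂ N b₁ := ⟨_, rfl⟩
  obtain ⟨A₂, hA₂⟩ : ∃ A₂ : N, A₂ = algebraMap ℂ N a₂ := ⟨_, rfl⟩
  obtain ⟨B₂, hB₂⟩ : ∃ B₂ : N, B₂ = algebraMap ℂ N b₂ := ⟨_, rfl⟩
  rw [← hk] at hH0 hBR hT hT' g1 g2 g3
  rw [← hc'] at hH0 hBR g1 g2
  rw [← hA₁] at hBR g1 g2
  rw [← hB₁] at hBR g2 g3
  rw [← hA₂] at hBR g1 g2
  rw [← hB₂] at hBR g2 g3
  obtain ⟨γ, hγ⟩ : ∃ γ : N, γ = 1 - c' := ⟨_, rfl⟩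
  obtain ⟨r, hrdef⟩ : ∃ r : N, r = t / s := ⟨_, rfl⟩
  have hr : r * s = t := by rw [hrdef, div_mul_cancel₀ _ hs0]
  obtain ⟨x, hx⟩ : ∃ x : N, x = r - k := ⟨_, rfl⟩
  have hx0 : x ≠ 0 := by
    intro h
    apply hT
    rw [← hr]
    linear_combination s * h - s * hx
  obtain ⟨ω, hωdef⟩ : ∃ ω : N, ω = x ^ 2 / (s - 1) := ⟨_, rfl⟩
  have hω : ω * (s - 1) = x ^ 2 := by rw [hωdef, div_mul_cancel₀ _ hs1]
  have hω0 : ω ≠ 0 := by
    rw [hωdef]
    exact div_ne_zero (pow_ne_zero 2 hx0) hs1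
  obtain ⟨P₁, hP₁⟩ : ∃ P₁ : N, P₁ = (1 - k ^ 2) * (r * (1 + r)) := ⟨_, rfl⟩
  obtain ⟨Q₁, hQ₁⟩ : ∃ Q₁ : N, Q₁ = r ^ 2 - (k ^ 2 + 2 * k - 1) * r + 1 := ⟨_, rfl⟩
  have hPQ : Q₁ = P₁ + (k * r - 1) ^ 2 := by rw [hQ₁, hP₁]; ring
  have e1 : ROne κ s t = s ^ 2 * ((s - 1) * (P₁ + ω)) := by
    have h1 : s ^ 2 * ((s - 1) * (P₁ + ω)) = s ^ 2 * ((s - 1) * P₁ + ω * (s - 1)) := by ring
    rw [h1, hω, hx, hP₁]
    unfold ROne
    rw [← hk, ← hr]
    ring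
  have e2 : RTwo κ s t = s * ((s - 1) * (Q₁ + ω)) := by
    have h1 : s * ((s - 1) * (Q₁ + ω)) = s * ((s - 1) * Q₁ + ω * (s - 1)) := by ring
    rw [h1, hω, hx, hQ₁]
    unfold RTwo
    rw [← hk, ← hr]
    ring
  have hPω : P₁ + ω ≠ 0 := by
    intro h
    apply hR1
    rw [e1, h]
    ring
  have hQω : Q₁ + ω ≠ 0 := by
    intro h
    apply hR2
    rw [e2, h]
    ring
  have hkr : k * r - 1 ≠ 0 := by
    intro h
    apply hT'
    rw [← hr]
    linear_combination (-s) * h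
  have hH : (A₁ * r + B₁) * (A₂ * r + B₂) = γ * P₁ - x ^ 2 := by
    rw [hγ, hP₁, hx]
    linear_combination r ^ 2 * g1 + r * g2 + g3
  have hH1 : A₁ * r + B₁ ≠ 0 := by
    intro h
    apply hH0
    rw [h, zero_mul, hγ, hP₁, hx] at hH
    rw [← hr]
    linear_combination (-s ^ 2) * hH
  obtain ⟨u, hu⟩ : ∃ u : N, u = (k * r - 1) * (A₁ * r + B₁) := ⟨_, rfl⟩
  have hu0 : u ≠ 0 := by
    rw [hu]
    exact mul_ne_zero hkr hH1
  obtain ⟨ρ, hρdef⟩ : ∃ ρ : N, ρ = (P₁ + ω) / u := ⟨_, rfl⟩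
  have hρ : ρ * u = P₁ + ω := by rw [hρdef, div_mul_cancel₀ _ hu0]
  have hρ0 : ρ ≠ 0 := by
    rw [hρdef]
    exact div_ne_zero hPω hu0
  obtain ⟨D, hD⟩ : ∃ D : N, D = (A₁ * r + B₁) * ρ + (k * r - 1) := ⟨_, rfl⟩
  have hkD : (k * r - 1) * D = Q₁ + ω := by
    rw [hD, hPQ]
    rw [hu] at hρ
    linear_combination hρ
  have hD0 : D ≠ 0 := by
    intro h
    rw [h, mul_zero] at hkD
    exact hQω hkD.symm
  have hsx : s ^ 2 * x ^ 3 ≠ 0 := mul_ne_zero (pow_ne_zero 2 hs0) (pow_ne_zero 3 hx0)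
  obtain ⟨y, hydef⟩ : ∃ y : N, y = z * ω ^ 2 / (s ^ 2 * x ^ 3) := ⟨_, rfl⟩
  have hy : y * (s ^ 2 * x ^ 3) = z * ω ^ 2 := by rw [hydef, div_mul_cancel₀ _ hsx]
  have hy2 : y ^ 2 = (x ^ 2 + γ * ω) * (P₁ + ω) * (Q₁ + ω) := by
    apply mul_right_cancel₀ (pow_ne_zero 2 hsx)
    have h1 : ω * z ^ 2 = s ^ 4 * (s - 1) ^ 3 * (x ^ 2 + γ * ω) * (P₁ + ω) * (Q₁ + ω) := by
      rw [hz, e1, e2, ← hω, hγ]
      unfold gg
      rw [← hc']
      ring
    have h2 : y ^ 2 * (s ^ 2 * x ^ 3) ^ 2 = ω ^ 3 * (ω * z ^ 2) := by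
      rw [← mul_pow, hy]
      ring
    have h3 : (s ^ 2 * x ^ 3) ^ 2 = s ^ 4 * (ω * (s - 1)) ^ 3 := by
      rw [hω]
      ring
    rw [h2, h1, h3]
    ring
  obtain ⟨Y, hYdef⟩ : ∃ Y : N, Y = y / u := ⟨_, rfl⟩
  have hY : Y * u = y := by rw [hYdef, div_mul_cancel₀ _ hu0]
  have hY2 : Y ^ 2 = ρ * (γ * ρ * (k * r - 1) - (A₂ * r + B₂)) * D := by
    have hu0' := hu0
    have hρ' := hρ
    have hY' := hY
    rw [hu] at hu0' hρ' hY'
    refine relation_aux (x := x) (P₁ := P₁) (Q₁ := Q₁) (ω := ω) hu0' hρ' hD hPQ hH ?_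
    rw [hY', hy2]
  obtain ⟨η, hηdef⟩ : ∃ η : N, η = Y / D := ⟨_, rfl⟩
  have hη : η * D = Y := by rw [hηdef, div_mul_cancel₀ _ hD0]
  have hη2 : η ^ 2 * D = ρ * (γ * ρ * (k * r - 1) - (A₂ * r + B₂)) := by
    apply mul_right_cancel₀ hD0
    rw [← hY2, ← hη]
    ring
  obtain ⟨Δ, hΔ⟩ : ∃ Δ : N, Δ = η ^ 2 * (A₁ * ρ + k) - ρ * (γ * k * ρ - A₂) := ⟨_, rfl⟩
  have hΔr : r * Δ = -(ρ * (γ * ρ + B₂)) - η ^ 2 * (B₁ * ρ - 1) := by
    rw [hD] at hη2
    rw [hΔ]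
    linear_combination hη2
  have hΔ0 : Δ ≠ 0 := by
    intro h
    apply hBR
    have h1 : D * Δ = ρ * (-(γ * (A₁ + k * B₁)) * ρ ^ 2 + (A₂ * B₁ - A₁ * B₂) * ρ -
        (A₂ + k * B₂)) := by
      rw [hΔ]
      have h2 : D * (η ^ 2 * (A₁ * ρ + k) - ρ * (γ * k * ρ - A₂)) =
          (η ^ 2 * D) * (A₁ * ρ + k) - D * (ρ * (γ * k * ρ - A₂)) := by ring
      rw [h2, hη2, hD]
      ring
    rw [h, mul_zero] at h1
    have h3 := (mul_eq_zero.1 h1.symm).resolve_left hρ0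
    have h4 : ROne κ s t = s ^ 2 * ((s - 1) * (ρ * u)) := by rw [e1, hρ]
    rw [h4, hu, ← hr, ← hγ]
    linear_combination (s ^ 4 * (s - 1) ^ 2 * (k * r - 1) ^ 2 * (A₁ * r + B₁) ^ 2) * h3
  -- the field generated by `ρ` and `η`
  set F := IntermediateField.adjoin ℂ (Set.range ![ρ, η]) with hF
  have hρF : ρ ∈ F := IntermediateField.subset_adjoin _ _ ⟨0, rfl⟩
  have hηF : η ∈ F := IntermediateField.subset_adjoin _ _ ⟨1, rfl⟩
  have hconst : ∀ G : IntermediateField ℂ N, k ∈ G ∧ c' ∈ G ∧ A₁ ∈ G ∧ B₁ ∈ G ∧ A₂ ∈ G ∧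
      B₂ ∈ G ∧ γ ∈ G := by
    intro G
    have h1 : c' ∈ G := by rw [hc']; exact G.algebraMap_mem c
    refine ⟨?_, h1, ?_, ?_, ?_, ?_, ?_⟩
    · rw [hk]; exact G.algebraMap_mem κ
    · rw [hA₁]; exact G.algebraMap_mem a₁
    · rw [hB₁]; exact G.algebraMap_mem b₁
    · rw [hA₂]; exact G.algebraMap_mem a₂
    · rw [hB₂]; exact G.algebraMap_mem b₂
    · rw [hγ]; exact sub_mem G.one_mem h1
  have hPG : ∀ G : IntermediateField ℂ N, r ∈ G → P₁ ∈ G ∧ x ∈ G ∧ k * r - 1 ∈ G ∧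
      A₁ * r + B₁ ∈ G ∧ u ∈ G := by
    intro G hrG
    obtain ⟨hkG, -, hA1G, hB1G, -, -, -⟩ := hconst G
    have h1 : k * r - 1 ∈ G := sub_mem (mul_mem hkG hrG) G.one_mem
    have h2 : A₁ * r + B₁ ∈ G := add_mem (mul_mem hA1G hrG) hB1G
    refine ⟨?_, ?_, h1, h2, ?_⟩
    · rw [hP₁]
      exact mul_mem (sub_mem G.one_mem (pow_mem hkG 2)) (mul_mem hrG (add_mem G.one_mem hrG))
    · rw [hx]
      exact sub_mem hrG hkG
    · rw [hu]
      exact mul_mem h1 h2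
  obtain ⟨hkF, hcF, hA1F, hB1F, hA2F, hB2F, hγF⟩ := hconst F
  have hΔF : Δ ∈ F := by
    rw [hΔ]
    exact sub_mem (mul_mem (pow_mem hηF 2) (add_mem (mul_mem hA1F hρF) hkF))
      (mul_mem hρF (sub_mem (mul_mem (mul_mem hγF hkF) hρF) hA2F))
  have hrF : r ∈ F := by
    have h1 : r = (-(ρ * (γ * ρ + B₂)) - η ^ 2 * (B₁ * ρ - 1)) / Δ := by
      rw [eq_div_iff hΔ0, hΔr]
    rw [h1]
    exact div_mem (sub_mem (neg_mem (mul_mem hρF (add_mem (mul_mem hγF hρF) hB2F)))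
      (mul_mem (pow_mem hηF 2) (sub_mem (mul_mem hB1F hρF) F.one_mem))) hΔF
  obtain ⟨hP₁F, hxF, hkrF, hH1F, huF⟩ := hPG F hrF
  have hDF : D ∈ F := by
    rw [hD]
    exact add_mem (mul_mem hH1F hρF) hkrF
  have hYF : Y ∈ F := by
    rw [← hη]
    exact mul_mem hηF hDF
  have hyF : y ∈ F := by
    rw [← hY]
    exact mul_mem hYF huF
  have hωF : ω ∈ F := by
    have h1 : ω = ρ * u - P₁ := by rw [hρ]; ring
    rw [h1]
    exact sub_mem (mul_mem hρF huF) hP₁F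
  have hsF : s ∈ F := by
    have h1 : s = x ^ 2 / ω + 1 := by
      rw [← hω, mul_div_cancel_left₀ _ hω0]
      ring
    rw [h1]
    exact add_mem (div_mem (pow_mem hxF 2) hωF) F.one_mem
  have htF : t ∈ F := by
    rw [← hr]
    exact mul_mem hrF hsF
  have hzF : z ∈ F := by
    have h1 : z = y * (s ^ 2 * x ^ 3) / ω ^ 2 := by
      rw [hy, mul_div_cancel_right₀ _ (pow_ne_zero 2 hω0)]
    rw [h1]
    exact div_mem (mul_mem hyF (mul_mem (pow_mem hsF 2) (pow_mem hxF 3))) (pow_mem hωF 2)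
  have hEq : IntermediateField.adjoin ℂ {s, t} ⊔ IntermediateField.adjoin ℂ {z} = F := by
    apply le_antisymm
    · refine sup_le ?_ ?_
      · rw [IntermediateField.adjoin_le_iff]
        rintro a (ha | ha)
        · rw [ha]; exact hsF
        · rw [Set.mem_singleton_iff.1 ha]; exact htF
      · rw [IntermediateField.adjoin_le_iff]
        rintro a ha
        rw [Set.mem_singleton_iff.1 ha]
        exact hzF
    · rw [hF, IntermediateField.adjoin_le_iff, range_pair]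
      set G := IntermediateField.adjoin ℂ {s, t} ⊔ IntermediateField.adjoin ℂ {z} with hG
      have hs' : s ∈ G := (le_sup_left : IntermediateField.adjoin ℂ {s, t} ≤ _)
          (IntermediateField.subset_adjoin _ _ (by simp))
      have ht' : t ∈ G := (le_sup_left : IntermediateField.adjoin ℂ {s, t} ≤ _)
          (IntermediateField.subset_adjoin _ _ (by simp))
      have hz' : z ∈ G := (le_sup_right : IntermediateField.adjoin ℂ {z} ≤ _)
          (IntermediateField.mem_adjoin_simple_self ℂ _)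
      have hr' : r ∈ G := by rw [hrdef]; exact div_mem ht' hs'
      obtain ⟨hP₁G, hxG, hkrG, hH1G, huG⟩ := hPG G hr'
      have hωG : ω ∈ G := by
        rw [hωdef]
        exact div_mem (pow_mem hxG 2) (sub_mem hs' G.one_mem)
      have hρG : ρ ∈ G := by
        rw [hρdef]
        exact div_mem (add_mem hP₁G hωG) huG
      have hDG : D ∈ G := by
        rw [hD]
        exact add_mem (mul_mem hH1G hρG) hkrG
      have hyG : y ∈ G := by
        rw [hydef]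
        exact div_mem (mul_mem hz' (pow_mem hωG 2)) (mul_mem (pow_mem hs' 2) (pow_mem hxG 3))
      have hηG : η ∈ G := by
        rw [hηdef, hYdef]
        exact div_mem (div_mem hyG huG) hDG
      rintro a (ha | ha)
      · rw [ha]; exact hρG
      · rw [Set.mem_singleton_iff.1 ha]
        exact hηG
  refine isRational_of_gens hst _ _ hEq ?_
  rw [hEq]
  intro i
  fin_cases i
  · exact isAlgebraic_mem _ _ hsF
  · exact isAlgebraic_mem _ _ htF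

end

end Vale.Agent.P297.H109
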