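import Vale.Agent.P297.H839.Defs

/-!
Double covers of conic type.
-/

open IntermediateField

namespace Vale.Agent.P297.H109

/-- The double cover `F(z)` of the plane `F = ℂ(u,v)` is a conic bundle: up to a nonzero factor
`q` in `F`, `z` is a square root of a polynomial of degree at most two in `v` with nonzero
discriminant and coefficients in `ℂ(u)`. -/
def IsConicType {N : Type} [Field N] [Algebra ℂ N] (F : IntermediateField ℂ N) (z : N) : Prop :=
  ∃ u v a b c q : N, AlgebraicIndependent ℂ ![u, v] ∧ F = IntermediateField.adjoin ℂ {u, v} ∧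
    a ∈ ℂ⟮u⟯ ∧ b ∈ ℂ⟮u⟯ ∧ c ∈ ℂ⟮u⟯ ∧ b ^ 2 - 4 * a * c ≠ 0 ∧ q ∈ F ∧ q ≠ 0 ∧
    (q * z) ^ 2 = a * v ^ 2 + b * v + c

end Vale.Agent.P297.H109
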