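import Vale.Agent.P297.H839.Swap
import Vale.Agent.P297.H839.Points
import Vale.Agent.P297.H964.Tsen
import Vale.Agent.P297.H109.ConicDefs

/-!
Twins whose two double covers are conic bundles.
-/

set_option linter.unusedSectionVars false
set_option linter.style.haveILetI false

open CategoryTheory AlgebraicGeometry IntermediateField Polynomial

namespace Vale.Agent.P297.H109

open Vale.Agent.P297 Vale.Agent.P297.H839

section

variable {N : Type} [Field N] [Algebra ℂ N]

theorem conic_rational {F : IntermediateField ℂ N} {z : N} (h : IsConicType F z) :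
    IsRational (F ⊔ IntermediateField.adjoin ℂ {z}) := by
  obtain ⟨u, v, a, b, c, q, huv, hF, ha, hb, hc, hd, hq, hq0, hz⟩ := h
  obtain ⟨τ, hτ⟩ := Vale.Agent.P297.H964.exists_conic_param huv ha hb hc hd hz
  have hu : u ∈ F := by rw [hF]; exact IntermediateField.subset_adjoin _ _ (by simp)
  have hv : v ∈ F := by rw [hF]; exact IntermediateField.subset_adjoin _ _ (by simp)
  have hFle : F ≤ IntermediateField.adjoin ℂ {u, v, q * z} := by
    rw [hF]
    apply IntermediateField.adjoin.mono
    rintro x (hx | hx)
    · rw [hx]; simp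
    · rw [Set.mem_singleton_iff.1 hx]; simp
  have hEq : F ⊔ IntermediateField.adjoin ℂ {z} = IntermediateField.adjoin ℂ (Set.range ![u, τ]) := by
    rw [range_pair, hτ]
    apply le_antisymm
    · refine sup_le hFle ?_
      rw [IntermediateField.adjoin_le_iff]
      rintro x hx
      rw [Set.mem_singleton_iff.1 hx]
      have h1 : z = (q * z) / q := by rw [mul_div_cancel_left₀ _ hq0]
      have h2 : (q * z) / q ∈ IntermediateField.adjoin ℂ {u, v, q * z} :=
        div_mem (IntermediateField.subset_adjoin _ _ (by simp)) (hFle hq)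
      rw [← h1] at h2
      exact h2
    · rw [IntermediateField.adjoin_le_iff]
      rintro x (hx | hx | hx)
      · rw [hx]; exact (le_sup_left : F ≤ _) hu
      · rw [hx]; exact (le_sup_left : F ≤ _) hv
      · rw [Set.mem_singleton_iff.1 hx]
        exact mul_mem ((le_sup_left : F ≤ _) hq)
          ((le_sup_right : IntermediateField.adjoin ℂ {z} ≤ _)
            (IntermediateField.mem_adjoin_simple_self ℂ _))
  refine isRational_of_gens huv _ _ hEq ?_
  intro i
  refine isAlgebraic_mem _ _ ?_
  fin_cases i
  · exact (le_sup_left : F ≤ _) hu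
  · exact (le_sup_left : F ≤ _) hv

/-- Twins of conic type. -/
theorem conic_twins {B : Type} [Field B] [Algebra ℂ B] (β : B →ₐ[ℂ] N) (σ : B ≃ₐ[ℂ] B)
    (hσ : ∀ c, σ (σ c) = c) (b : B) (z w : N) (hz : z ^ 2 = β b) (hw : w ^ 2 = β (σ b))
    (h1 : IsConicType β.fieldRange z)
    (h2 : IsConicType ((IntermediateField.fixedField (Subgroup.zpowers σ)).map β) (z * w)) :
    PointsEquivalent ((IntermediateField.fixedField (Subgroup.zpowers σ)).map β ⊔
      IntermediateField.adjoin ℂ {z + w} : IntermediateField ℂ N) := by
  intro S _ f _ hS x y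
  exact twins β σ hσ b z w hz hw (conic_rational h1) (conic_rational h2) f hS x y

end

end Vale.Agent.P297.H109
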