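import Vale.Agent.P297.H839.Swap
import Vale.Agent.P297.H839.Points
import Vale.Agent.P297.H109.Camp

/-!
Families `z² = g(s) φ`, `w² = g(t) φ` with `φ` symmetric.
-/

set_option linter.unusedSectionVars false
set_option linter.style.haveILetI false

open CategoryTheory AlgebraicGeometry IntermediateField Polynomial

namespace Vale.Agent.P297.H109

open Vale.Agent.P297 Vale.Agent.P297.H839

section

variable {N : Type} [Field N] [Algebra ℂ N]

theorem alg_sym {s t : N} (F : IntermediateField ℂ N) (hq : s + t ∈ F) (hp : s * t ∈ F) (i : Fin 2) :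
    IsAlgebraic F (![s, t] i) := by
  have hs : IsAlgebraic F s := by
    refine ⟨X ^ 2 - Polynomial.C ⟨s + t, hq⟩ * X + Polynomial.C ⟨s * t, hp⟩, ?_, ?_⟩
    · apply Monic.ne_zero
      monicity!
    · simp only [map_add, map_sub, map_pow, aeval_X, map_mul, aeval_C]
      change s ^ 2 - (s + t) * s + s * t = 0
      ring
  fin_cases i
  · exact hs
  · have h1 : t = (s + t) - s := by ring
    have h2 : IsAlgebraic F ((s + t) - s) := (isAlgebraic_mem F _ hq).sub hs
    rw [← h1] at h2
    exact h2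

/-- The field `ℂ(s+t,st,zw)` is purely transcendental. -/
theorem sym_rational_zw (c : ℂ) {s t φ z w : N} (hst : AlgebraicIndependent ℂ ![s, t])
    (hφ : φ ∈ IntermediateField.adjoin ℂ {s + t, s * t}) (hφ0 : φ ≠ 0)
    (hz : z ^ 2 = gg c s * φ) (hw : w ^ 2 = gg c t * φ) :
    IsRational (IntermediateField.adjoin ℂ {s + t, s * t} ⊔ IntermediateField.adjoin ℂ {z * w}) := by
  have hind : AlgebraicIndependent ℂ ![s + t, s * t] := by
    refine indep_of_algebraic hst (alg_sym _ ?_ ?_)
    · exact IntermediateField.subset_adjoin _ _ ⟨0, rfl⟩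
    · exact IntermediateField.subset_adjoin _ _ ⟨1, rfl⟩
  obtain ⟨ε, hεdef⟩ : ∃ ε : N, ε = z * w / φ := ⟨_, rfl⟩
  have hε : ε * φ = z * w := by rw [hεdef, div_mul_cancel₀ _ hφ0]
  have hε2 : ε ^ 2 = s * t * (1 - (s + t) + s * t) *
      (algebraMap ℂ N c ^ 2 - algebraMap ℂ N c * (s + t) + s * t) := by
    apply mul_right_cancel₀ (pow_ne_zero 2 hφ0)
    rw [← mul_pow, hε, mul_pow, hz, hw]
    unfold gg
    ring
  obtain ⟨x, hx, hxσ, hxπ, hxε⟩ := mem_adjoin_of_conic c hind hε2
  have hle : IntermediateField.adjoin ℂ {s + t, s * t} ≤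
      IntermediateField.adjoin ℂ (Set.range x) := by
    rw [IntermediateField.adjoin_le_iff]
    rintro a (ha | ha)
    · rw [ha]; exact hxσ
    · rw [Set.mem_singleton_iff.1 ha]; exact hxπ
  have hEq : IntermediateField.adjoin ℂ {s + t, s * t} ⊔ IntermediateField.adjoin ℂ {z * w} =
      IntermediateField.adjoin ℂ (Set.range x) := by
    apply le_antisymm
    · refine sup_le hle ?_
      rw [IntermediateField.adjoin_le_iff]
      rintro a ha
      rw [Set.mem_singleton_iff.1 ha, ← hε]
      exact mul_mem hxε (hle hφ)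
    · rw [IntermediateField.adjoin_le_iff]
      rintro a ⟨i, rfl⟩
      have h1 : IntermediateField.adjoin ℂ {s + t, s * t, ε} ≤
          IntermediateField.adjoin ℂ {s + t, s * t} ⊔ IntermediateField.adjoin ℂ {z * w} := by
        have hle' : IntermediateField.adjoin ℂ {s + t, s * t} ≤
          IntermediateField.adjoin ℂ {s + t, s * t} ⊔ IntermediateField.adjoin ℂ {z * w} :=
          le_sup_left
        rw [IntermediateField.adjoin_le_iff]
        rintro a (ha | ha | ha)
        · rw [ha]; exact hle' (IntermediateField.subset_adjoin _ _ (by simp))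
        · rw [ha]; exact hle' (IntermediateField.subset_adjoin _ _ (by simp))
        · rw [Set.mem_singleton_iff.1 ha, hεdef]
          exact div_mem ((le_sup_right : IntermediateField.adjoin ℂ {z * w} ≤ _)
            (IntermediateField.mem_adjoin_simple_self ℂ _)) (hle' hφ)
      exact h1 (hx i)
  refine isRational_of_gens hst _ _ hEq ?_
  rw [hEq]
  exact alg_sym _ hxσ hxπ

/-- Twins over the field of rational functions of two variables. -/
theorem twins_swap {s t z w : N} (B : IntermediateField ℂ N)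
    (hB : B = IntermediateField.adjoin ℂ {s, t}) (σ : B ≃ₐ[ℂ] B) (hσ : ∀ c, σ (σ c) = c)
    (hfix : (IntermediateField.fixedField (Subgroup.zpowers σ)).map B.val =
      IntermediateField.adjoin ℂ {s + t, s * t}) (b : B) (hz : z ^ 2 = B.val b)
    (hw : w ^ 2 = B.val (σ b))
    (h1 : IsRational (IntermediateField.adjoin ℂ {s, t} ⊔ IntermediateField.adjoin ℂ {z}))
    (h2 : IsRational (IntermediateField.adjoin ℂ {s + t, s * t} ⊔
      IntermediateField.adjoin ℂ {z * w})) :
    PointsEquivalent (IntermediateField.adjoin ℂ {s + t, s * t, z + w, z * w}) := by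
  intro S _ f _ hS x y
  have hK : (IntermediateField.fixedField (Subgroup.zpowers σ)).map B.val ⊔
      IntermediateField.adjoin ℂ {z + w} =
      IntermediateField.adjoin ℂ {s + t, s * t, z + w, z * w} := by
    have hmem : z ^ 2 + w ^ 2 ∈ IntermediateField.adjoin ℂ {s + t, s * t} := by
      rw [← hfix]
      refine ⟨b + σ b, mem_fixed ?_, ?_⟩
      · rw [map_add, hσ, add_comm]
      · rw [hz, hw, ← map_add]
        rfl
    rw [hfix]
    apply le_antisymm
    · refine sup_le ?_ ?_
      · apply IntermediateField.adjoin.mono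
        rintro a (ha | ha)
        · rw [ha]; simp
        · rw [Set.mem_singleton_iff.1 ha]; simp
      · apply IntermediateField.adjoin.mono
        rintro a ha
        rw [Set.mem_singleton_iff.1 ha]
        simp
    · rw [IntermediateField.adjoin_le_iff]
      set G := IntermediateField.adjoin ℂ {s + t, s * t} ⊔ IntermediateField.adjoin ℂ {z + w}
      have hle : IntermediateField.adjoin ℂ {s + t, s * t} ≤ G := le_sup_left
      have hq : s + t ∈ G := hle (IntermediateField.subset_adjoin _ _ (by simp))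
      have hp : s * t ∈ G := hle (IntermediateField.subset_adjoin _ _ (by simp))
      have hθ : z + w ∈ G :=
        (le_sup_right : IntermediateField.adjoin ℂ {z + w} ≤ _)
          (IntermediateField.mem_adjoin_simple_self ℂ _)
      have hζ : z * w ∈ G := by
        haveI : CharZero N := charZero_of_injective_algebraMap (algebraMap ℂ N).injective
        have h3 : z * w = ((z + w) ^ 2 - (z ^ 2 + w ^ 2)) / 2 := by
          rw [eq_div_iff two_ne_zero]
          ring
        rw [h3]
        exact div_mem (sub_mem (pow_mem hθ 2) (hle hmem)) (ofNat_mem _ 2)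
      rintro a (ha | ha | ha | ha)
      · rw [ha]; exact hq
      · rw [ha]; exact hp
      · rw [ha]; exact hθ
      · rw [Set.mem_singleton_iff.1 ha]; exact hζ
  rw [← hK] at hS
  refine twins B.val σ hσ b z w hz hw ?_ ?_ f hS x y
  · rw [IntermediateField.fieldRange_val, hB]
    exact h1
  · rw [hfix]
    exact h2

theorem map_gg {K : Type} [Field K] [Algebra ℂ K] (m : K →ₐ[ℂ] N) (c : ℂ) (s : K) :
    m (gg c s) = gg c (m s) := by
  unfold gg
  simp only [map_mul, map_sub, map_one, AlgHom.commutes]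

/-- Families `z² = g(s) φ`, `w² = g(t) φ` with `φ` symmetric. -/
theorem sym_family (c : ℂ) {s t φ z w : N} (hst : AlgebraicIndependent ℂ ![s, t])
    (hφ : φ ∈ IntermediateField.adjoin ℂ {s + t, s * t}) (hφ0 : φ ≠ 0)
    (hz : z ^ 2 = gg c s * φ) (hw : w ^ 2 = gg c t * φ)
    (h1 : IsRational (IntermediateField.adjoin ℂ {s, t} ⊔ IntermediateField.adjoin ℂ {z})) :
    PointsEquivalent (IntermediateField.adjoin ℂ {s + t, s * t, z + w, z * w}) := by
  obtain ⟨B, hB⟩ : ∃ B : IntermediateField ℂ N, B = IntermediateField.adjoin ℂ {s, t} := ⟨_, rfl⟩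
  have hsB : s ∈ B := by rw [hB]; exact IntermediateField.subset_adjoin _ _ (by simp)
  have htB : t ∈ B := by rw [hB]; exact IntermediateField.subset_adjoin _ _ (by simp)
  obtain ⟨σ, hσ, hσs, hσt⟩ := exists_swap hst B hB ⟨s, hsB⟩ ⟨t, htB⟩ rfl rfl
  have hfix := fixed_swap B hB ⟨s, hsB⟩ ⟨t, htB⟩ rfl rfl σ hσs hσt
  have hφ' := hφ
  rw [← hfix] at hφ'
  obtain ⟨φ₀, hφ₀, hφ₀'⟩ := hφ'
  have hφ₁ : σ φ₀ = φ₀ := fixed_of_mem hφ₀
  have hφ₂ : B.val φ₀ = φ := hφ₀'
  refine twins_swap B hB σ hσ hfix (gg c ⟨s, hsB⟩ * φ₀) ?_ ?_ h1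
    (sym_rational_zw c hst hφ hφ0 hz hw)
  · rw [map_mul, map_gg, hφ₂]
    exact hz
  · have h2 : σ (gg c (⟨s, hsB⟩ : B)) = gg c (⟨t, htB⟩ : B) := by
      have h3 := map_gg σ.toAlgHom c (⟨s, hsB⟩ : B)
      exact h3.trans (congrArg (gg c) hσs)
    rw [map_mul, h2, hφ₁, map_mul, map_gg, hφ₂]
    exact hw

theorem ROne_mem (κ : ℂ) {s t : N} (F : IntermediateField ℂ N) (hq : s + t ∈ F)
    (hp : s * t ∈ F) : ROne κ s t ∈ F := by
  have hk : algebraMap ℂ N κ ∈ F := F.algebraMap_mem κ
  have h2 : (2 : N) ∈ F := ofNat_mem F 2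
  have h1 : ROne κ s t = (1 - algebraMap ℂ N κ ^ 2) * (s * t * (s + t)) +
      algebraMap ℂ N κ ^ 2 * ((s + t) ^ 2 - 2 * (s * t)) +
      (algebraMap ℂ N κ ^ 2 - 2 * algebraMap ℂ N κ - 1) * (s * t) := by
    unfold ROne
    ring
  rw [h1]
  exact add_mem (add_mem (mul_mem (sub_mem F.one_mem (pow_mem hk 2)) (mul_mem hp hq))
    (mul_mem (pow_mem hk 2) (sub_mem (pow_mem hq 2) (mul_mem h2 hp))))
    (mul_mem (sub_mem (sub_mem (pow_mem hk 2) (mul_mem h2 hk)) F.one_mem) hp)

theorem RTwo_mem (κ : ℂ) {s t : N} (F : IntermediateField ℂ N) (hq : s + t ∈ F)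
    (hp : s * t ∈ F) : RTwo κ s t ∈ F := by
  have hk : algebraMap ℂ N κ ∈ F := F.algebraMap_mem κ
  have h2 : (2 : N) ∈ F := ofNat_mem F 2
  have h1 : RTwo κ s t = (s + t) ^ 2 - 2 * (s * t) -
      (algebraMap ℂ N κ ^ 2 + 2 * algebraMap ℂ N κ - 1) * (s * t) +
      (algebraMap ℂ N κ ^ 2 - 1) * (s + t) := by
    unfold RTwo
    ring
  rw [h1]
  exact add_mem (sub_mem (sub_mem (pow_mem hq 2) (mul_mem h2 hp))
    (mul_mem (sub_mem (add_mem (pow_mem hk 2) (mul_mem h2 hk)) F.one_mem) hp))
    (mul_mem (sub_mem (pow_mem hk 2) F.one_mem) hq)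

/-- **The third family.** -/
theorem camp_family {κ c : ℂ} (hκ : κ ≠ 0) (hκ1 : κ ^ 2 ≠ 1) (hκc : κ ≠ c) (hc : c ≠ 1)
    {s t z w : N} (hst : AlgebraicIndependent ℂ ![s, t])
    (hz : z ^ 2 = gg c s * (ROne κ s t * RTwo κ s t))
    (hw : w ^ 2 = gg c t * (ROne κ s t * RTwo κ s t)) :
    PointsEquivalent (IntermediateField.adjoin ℂ {s + t, s * t, z + w, z * w}) := by
  have hq : s + t ∈ IntermediateField.adjoin ℂ {s + t, s * t} :=
    IntermediateField.subset_adjoin _ _ (by simp)
  have hp : s * t ∈ IntermediateField.adjoin ℂ {s + t, s * t} :=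
    IntermediateField.subset_adjoin _ _ (by simp)
  exact sym_family c hst (mul_mem (ROne_mem κ _ hq hp) (RTwo_mem κ _ hq hp))
    (mul_ne_zero (ROne_ne_zero hκ hst) (RTwo_ne_zero hκ hst)) hz hw
    (camp_rational_z hκ hκ1 hκc hc hst hz)

end

end Vale.Agent.P297.H109
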