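import Vale.Agent.P297.H839.Points
import Vale.Agent.P297.H109.ConicDefs

/-!
Abbreviations for the statements on Galois twins.
-/

open IntermediateField

namespace Vale.Agent.P297.H109

open Vale.Agent.P297 Vale.Agent.P297.H839

/-- For `s`, `t` algebraically independent over `ℂ` and `z² = A(s,t)`, `w² = A(t,s)`: any two closed
points of any integral proper `ℂ`-scheme with function field `ℂ(s+t, st, z+w, zw)` are rationally
equivalent. -/
def TwinFamily (A : ∀ (N : Type) [Field N] [Algebra ℂ N], N → N → N) : Prop :=
  ∀ (N : Type) [Field N] [Algebra ℂ N] (s t z w : N), AlgebraicIndependent ℂ ![s, t] →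
    z ^ 2 = A N s t → w ^ 2 = A N t s →
    PointsEquivalent (IntermediateField.adjoin ℂ {s + t, s * t, z + w, z * w})

/-- For every field `B` with an involution `σ`, `L` its fixed field, `b` in `B`, and `z² = b`,
`w² = σ(b)` in a field `N` that contains `B` (by `β`): if the double covers `z` of `B` and `z w` of
`L` have the property `R`, then any two closed points of any integral proper `ℂ`-scheme with
function field `L(z + w)` are rationally equivalent. -/
def TwinPrinciple (R : ∀ (N : Type) [Field N] [Algebra ℂ N], IntermediateField ℂ N → N → Prop) :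
    Prop :=
  ∀ (B N : Type) [Field B] [Algebra ℂ B] [Field N] [Algebra ℂ N] (β : B →ₐ[ℂ] N)
    (σ : B ≃ₐ[ℂ] B) (b : B) (z w : N), (∀ c, σ (σ c) = c) → z ^ 2 = β b → w ^ 2 = β (σ b) →
    R N β.fieldRange z →
    R N ((IntermediateField.fixedField (Subgroup.zpowers σ)).map β) (z * w) →
    PointsEquivalent ((IntermediateField.fixedField (Subgroup.zpowers σ)).map β ⊔
      IntermediateField.adjoin ℂ {z + w} : IntermediateField ℂ N)

end Vale.Agent.P297.H109
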